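import Vale.Agent.P291.H415.N5.Main

/-!
# Graded pieces of the spans of the Hall terms
-/

set_option linter.unusedSectionVars false

namespace Vale.Agent.P291Z.HE

open MvPolynomial Vale.Agent.P291 H2h Module

variable {I E B Λ k : Type*} [Fintype E] [DecidableEq I] [Fintype B] [DecidableEq B] [CommRing Λ]
  [IsDomain Λ] [Field k] [CharZero k] [Algebra k Λ]
variable (Q : QD I E B Λ) (S : Scal k Λ)

/-- the homogeneous part of a submodule -/
noncomputable def hp (M : Submodule Λ (KK B Λ)) (d : ℤ) : Submodule k (KK B Λ) :=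
  M.restrictScalars k ⊓ S.homK B d

theorem mem_hp {M : Submodule Λ (KK B Λ)} {d : ℤ} {f : KK B Λ} :
    f ∈ hp S M d ↔ f ∈ M ∧ S.Hom d f := Iff.rfl

theorem exists_decZ (f : SS B Λ) (d : ℤ) : ∃ (T : Finset ℤ) (F : ℤ → SS B Λ), d ∈ T ∧
    (∀ e, F e ∈ S.homS B e) ∧ ∑ e ∈ T, F e = f := by
  classical
  obtain ⟨F, h1, h2⟩ := exists_dec S f
  let G : ℤ →₀ SS B Λ := F.embDomain Nat.castEmbedding
  refine ⟨insert d G.support, G, Finset.mem_insert_self _ _, fun e => ?_, ?_⟩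
  · by_cases he : e ∈ Set.range (Nat.castEmbedding : ℕ ↪ ℤ)
    · obtain ⟨n, rfl⟩ := he
      rw [show G (Nat.castEmbedding n) = F n from Finsupp.embDomain_apply_self _ _ _]
      exact h1 n
    · rw [show G e = 0 from Finsupp.embDomain_notin_range _ _ _ he]
      exact Submodule.zero_mem _
  · rw [h2, ← Finsupp.sum_of_support_subset G (Finset.subset_insert _ _) (fun _ x => x)
      fun _ _ => rfl]
    exact Finsupp.sum_embDomain

theorem UU_le : Q.UU ≤ Q.LL :=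
  Submodule.span_mono fun _ ⟨g, s, _, h⟩ => ⟨g, s, h⟩

theorem toK_mem_LL [Algebra ℚ Λ] {r : SS B Λ} (hr : r ∈ Q.R) : toK r ∈ Q.LL :=
  HN1a.mem_LL_of Q (fun σ hσ => by rw [act_toK, hr σ hσ]) ({()} : Finset Unit) (fun _ => r)
    (fun _ => 0) (by rw [Finset.sum_singleton, HN1a.kap_zero, mul_one])

theorem mem_Wf {σ : Equiv.Perm B} : σ ∈ Q.Wf ↔ σ ∈ Q.W :=
  Finset.mem_filter.trans (and_iff_right (Finset.mem_univ _))

theorem exists_R {f : KK B Λ} (hf : f ∈ Q.LL) : ∃ r ∈ Q.R, f - toK r ∈ Q.UU := by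
  induction hf using Submodule.span_induction with
  | mem x hx =>
    obtain ⟨g, s, rfl⟩ := hx
    by_cases hg : g = 0
    · subst hg
      refine ⟨∑ σ ∈ Q.Wf, rename σ s, fun τ hτ => ?_, ?_⟩
      · rw [map_sum]
        refine Finset.sum_nbij' (fun σ => τ * σ) (fun σ => τ⁻¹ * σ) (fun σ hσ => ?_)
          (fun σ hσ => ?_) (fun σ _ => by simp) (fun σ _ => by simp) fun σ _ => ?_
        · exact (mem_Wf Q).2 (Q.W.mul_mem hτ ((mem_Wf Q).1 hσ))
        · exact (mem_Wf Q).2 (Q.W.mul_mem (Q.W.inv_mem hτ) ((mem_Wf Q).1 hσ))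
        · rw [rename_rename]; rfl
      · have : Q.hall 0 s = toK (∑ σ ∈ Q.Wf, rename σ s) := by
          unfold QD.hall
          rw [show toK (∑ σ ∈ Q.Wf, rename σ s) = ∑ σ ∈ Q.Wf, toK (rename σ s) from map_sum _ _ _]
          exact Finset.sum_congr rfl fun σ _ => by rw [HN1a.kap_zero, mul_one, act_toK]
        rw [this, sub_self]
        exact Submodule.zero_mem _
    · refine ⟨0, Q.R.zero_mem, ?_⟩
      rw [HG1.toK_zero, sub_zero]
      exact Submodule.subset_span ⟨g, s, hg, rfl⟩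
  | zero => exact ⟨0, Q.R.zero_mem, by rw [HG1.toK_zero, sub_zero]; exact Submodule.zero_mem _⟩
  | add x y _ _ hx hy =>
    obtain ⟨r, hr, h⟩ := hx
    obtain ⟨r', hr', h'⟩ := hy
    refine ⟨r + r', Q.R.add_mem hr hr', ?_⟩
    rw [HG1.toK_add, add_sub_add_comm]
    exact Submodule.add_mem _ h h'
  | smul c x _ hx =>
    obtain ⟨r, hr, h⟩ := hx
    refine ⟨c • r, Q.R.smul_mem hr c, ?_⟩
    rw [show toK (c • r) = c • toK r by
      rw [HN1a.smul_KK, smul_eq_C_mul, HG1.toK_mul], ← smul_sub]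
    exact Submodule.smul_mem _ _ h

theorem exists_Rd (hS : Q.Lin S) {d : ℤ} {f : KK B Λ} (hf : f ∈ hp S Q.LL d) :
    ∃ r ∈ Q.Rd S d, f - toK r ∈ Q.UU := by
  classical
  obtain ⟨r, hr, h⟩ := exists_R Q hf.1
  obtain ⟨T, F, hd, h1, h2⟩ := exists_decZ S r d
  have h3 := HG2.comp_mem_finset (sSl S) ((Subalgebra.toSubmodule Q.R).restrictScalars k)
    (fun x hx => R_stable Q S hx) T F (fun e _ => (homS_iff S).1 (h1 e)) (by rw [h2]; exact hr) d hd
  refine ⟨F d, ⟨h3, h1 d⟩, ?_⟩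
  have h4 := HG2.comp_mem_finset (sKl S) (Q.UU.restrictScalars k)
    (fun x hx => UU_stable Q S hS hx) T (fun e => (if e = d then f else 0) - toK (F e))
    (fun e _ => (hom_iff S).1 (HG1.hom_sub S (by
      split_ifs with he
      · exact he ▸ hf.2
      · exact HG1.hom_zero S e) (h1 e))) (by
      rw [Finset.sum_sub_distrib, Finset.sum_ite_eq', if_pos hd,
        show ∑ e ∈ T, toK (F e) = toK (∑ e ∈ T, F e) from (map_sum _ _ _).symm, h2]
      exact h) d hd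
  rwa [if_pos rfl] at h4

variable [Algebra ℚ Λ] (hS : Q.Lin S) (hQ : Q.NonzeroLoops) {ιΛ : Type*} (c : Basis ιΛ k Λ)
  (dc : ιΛ → ℕ) (hc : ∀ i, S.θ (c i) = 2 ^ dc i * c i) (hfin : ∀ n, {i | dc i = n}.Finite)
include hS hQ hc hfin

theorem finrank_LL_le (d : ℤ) [Module.Finite k (hp S Q.LL d)] :
    finrank k (hp S Q.LL d) ≤ finrank k (hp S Q.UU d) + Q.hH S d := by
  have : Module.Finite k (Q.Rd S d) :=
    have := finite_homS (B := B) S c dc hc hfin d
    Submodule.finiteDimensional_of_le (inf_le_right : Q.Rd S d ≤ S.homS B d)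
  let N := (hp S Q.UU d).submoduleOf (hp S Q.LL d)
  let φ : Q.Rd S d →ₗ[k] hp S Q.LL d :=
    { toFun := fun r => ⟨toK r.1, toK_mem_LL Q r.2.1, r.2.2⟩
      map_add' := fun a b => Subtype.ext (HG1.toK_add _ _)
      map_smul' := fun a b => Subtype.ext (smul_toK_eq _ _) }
  let ψ := ((Q.Jd S d).submoduleOf (Q.Rd S d)).liftQ (N.mkQ ∘ₗ φ) fun r hr =>
    (Submodule.Quotient.mk_eq_zero N).2 ⟨(JD_iff Q hQ r.2.1).1 hr.1, r.2.2⟩
  have hs : Function.Surjective ψ := fun x => by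
    obtain ⟨f, rfl⟩ := N.mkQ_surjective x
    obtain ⟨r, hr, h⟩ := exists_Rd Q S hS f.2
    refine ⟨Submodule.Quotient.mk ⟨r, hr⟩, ((Submodule.Quotient.eq N).2 ?_).symm⟩
    exact ⟨h, HG1.hom_sub S f.2.2 hr.2⟩
  have h1 := LinearMap.finrank_le_finrank_of_surjective hs
  have h2 := N.finrank_quotient_add_finrank
  have h3 : finrank k N = finrank k (hp S Q.UU d) :=
    (Submodule.submoduleOfEquivOfLe (show hp S Q.UU d ≤ hp S Q.LL d from
      fun _ h => ⟨UU_le Q h.1, h.2⟩)).finrank_eq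
  unfold QD.hH
  omega

theorem finrank_LL (d : ℤ) : finrank k (hp S Q.LL d) =
    Nat.card {p : ιΛ × Q.Idx // (dc p.1 : ℤ) + Q.degI p.2 = d} := by
  obtain ⟨β, h1, h2, h3⟩ := LL_basis Q S hS hQ
  rw [← count_basis (sKl S) (b1 Q c β) (b1_indep Q c h2) _ (b1_hom Q S c dc hc h1) d
    (finite1 Q dc hfin d), b1_span Q c h3]
  have : LinearMap.ker (sKl S - (2 : k) ^ d • LinearMap.id) = S.homK B d := by
    ext f
    rw [LinearMap.mem_ker, LinearMap.sub_apply, sub_eq_zero]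
    exact (hom_iff S).symm
  rw [this]
  rfl

omit hS hQ hc in
theorem card_prod (d : ℤ) : Nat.card {p : ιΛ × Q.Idx // (dc p.1 : ℤ) + Q.degI p.2 = d} =
    ∑ᶠ e : ℤ, Q.mul e * Nat.card {i : ιΛ // (dc i : ℤ) = d - e} := by
  obtain ⟨c0, hc0⟩ := Idx_bdd Q
  have hf : ∀ n : ℤ, Finite {i : ιΛ // (dc i : ℤ) = n} := fun n =>
    ((hfin n.toNat).subset fun i (hi : (dc i : ℤ) = n) => show dc i = n.toNat by omega).to_subtype
  have h := count Q.degI (fun n => Nat.card {i : ιΛ // (dc i : ℤ) = n}) c0 hc0 (fun n hn => by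
    have : IsEmpty {i : ιΛ // (dc i : ℤ) = n} := ⟨fun i => by have := i.2; omega⟩
    exact Nat.card_of_isEmpty) 0 d (Idx_fin Q)
  simp only [sub_zero] at h
  refine Eq.trans (Nat.card_congr ?_) h
  let e : (Σ n : ℤ, Fin (Nat.card {i : ιΛ // (dc i : ℤ) = n})) ≃ ιΛ :=
    (Equiv.sigmaCongrRight fun n => (Finite.equivFin _).symm).trans
      (Equiv.sigmaFiberEquiv fun i => (dc i : ℤ))
  refine (Equiv.subtypeEquiv (((Equiv.refl _).prodCongr e).trans (Equiv.prodComm _ _))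
    fun q => ?_).symm
  have : (dc (e q.2) : ℤ) = q.2.1 := ((Finite.equivFin _).symm q.2.2).2
  show _ ↔ (dc (e q.2) : ℤ) + Q.degI q.1 = d
  omega

/-- the recursion, with the term of the empty subset separated -/
theorem pbw_erase [Fintype I] (d : ℤ) :
    Nat.card {p : ιΛ × Q.Idx // (dc p.1 : ℤ) + Q.degI p.2 = d} = Q.hH S d +
      ∑ p ∈ (Finset.HasAntidiagonal.antidiagonal (N5.dvec Q)).erase (0, N5.dvec Q),
        ∑ᶠ e : ℤ, (Q.rst (N5.ch Q p)).unf.mul e *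
          (Q.rst (N5.ch Q p)ᶜ).hH S (d - Q.degK (QD.ind (N5.ch Q p)) - e) := by
  rw [pbw_count Q S hS hQ _ (N5.TT_spec Q) c dc hc hfin d, N5.sum_TT,
    ← Finset.add_sum_erase _ _ (a := (0, N5.dvec Q))
      (by rw [Finset.HasAntidiagonal.mem_antidiagonal, zero_add]), N5.ch_zero]
  congr 1
  have hdk : Q.degK (QD.ind (∅ : Finset B)) = 0 := by
    unfold QD.degK
    rw [N5.card_cross, N5.card_crossP, Finset.sum_eq_zero, Finset.sum_eq_zero]
    · rfl
    · intro i _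
      simp [N5.nU]
    · intro a _
      rcases Q.tgt a with _ | i <;> simp [N5.nUo, N5.nU]
  have : IsEmpty {b // b ∈ (∅ : Finset B)} := ⟨fun b => absurd b.2 (Finset.notMem_empty _)⟩
  rw [hdk, finsum_eq_single _ 0]
  · rw [N5.mul_empty, if_pos rfl, one_mul, sub_zero, sub_zero]
    exact hH_congr Q S (Equiv.subtypeUnivEquiv fun b => by simp) (fun b => Q.vx b.1)
      (fun _ => rfl) d
  · intro e he
    rw [N5.mul_empty, if_neg he, zero_mul]

end Vale.Agent.P291Z.HE
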