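import Vale.Agent.P291Z.Bnd0
import Vale.Agent.P291Z.HE.Alg

/-!
# Comparison of upper bounds with the image of a graded map
-/

set_option linter.unusedSectionVars false

namespace Vale.Agent.P291Z

open Set Function Topology Module Vale.Agent.P291 H2h HE

variable {G X Y U : Type} [Group G] [TopologicalSpace G] [Sys G]
  [TopologicalSpace X] [MulAction G X] [Nice X] [ContinuousSMul G X]
  [TopologicalSpace Y] [MulAction G Y] [Nice Y] [ContinuousSMul G Y]
  [TopologicalSpace U] [MulAction G U] [Nice U] [ContinuousSMul G U] {D : ℤ} {h h' : ℤ → ℕ}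
  {B Λ : Type} [Fintype B] [DecidableEq B] [CommRing Λ] [IsDomain Λ] [Algebra ℂ Λ] {S : Scal ℂ Λ}

theorem Bnd.exists_sum (H : Bnd G X D h) (β : EH G X) (d : ℤ) : ∃ T : Finset ℤ, d ∈ T ∧
    ∑ e ∈ T, EH.comp (2 * D - 2 * e) β = β := by
  obtain ⟨s, h1, h2⟩ := EH.exists_sum_comp β
  refine ⟨insert d (s.image fun k => D - k / 2), Finset.mem_insert_self _ _, ?_⟩
  rw [← Finset.sum_image (f := fun k => EH.comp k β) (g := fun e => 2 * D - 2 * e)
    fun a _ b _ hab => by dsimp only at hab; omega]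
  refine Eq.trans ?_ h1
  refine (Finset.sum_subset Finset.subset_union_left fun k hk hk' => ?_).trans
    (Finset.sum_subset Finset.subset_union_right fun k _ hk => h2 k hk).symm
  have hk := (Finset.mem_union.1 hk).resolve_left hk'
  rcases Int.even_or_odd' k with ⟨e, he | he⟩
  · refine absurd (Finset.mem_image.2 ⟨D - k / 2, Finset.mem_insert_of_mem ?_, by omega⟩) hk'
    exact Finset.mem_image.2 ⟨k, hk, rfl⟩
  · have := EH.comp_mem k β
    rwa [H.odd k ⟨e, he⟩] at this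

variable (H : Bnd G X D h) {Ψ : EH G X →ₗ[ℂ] P291.KK B Λ}
  (hd : ∀ d, ∀ β ∈ EH.deg G X (2 * D - 2 * d), S.Hom d (Ψ β))
include H hd

theorem Bnd.comp_eq {β : EH G X} {d : ℤ} (hf : S.Hom d (Ψ β)) :
    Ψ (EH.comp (2 * D - 2 * d) β) = Ψ β := by
  classical
  obtain ⟨T, h1, h2⟩ := H.exists_sum β d
  have := HG2.comp_mem_finset (sKl S) ⊥ (fun x hx => by rw [(Submodule.mem_bot ℂ).1 hx, map_zero]; rfl)
    T (fun e => (if e = d then Ψ β else 0) - Ψ (EH.comp (2 * D - 2 * e) β))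
    (fun e _ => (hom_iff S).1 (HG1.hom_sub S (by
      split_ifs with he
      · exact he ▸ hf
      · exact HG1.hom_zero S e) (hd _ _ (EH.comp_mem _ _)))) (by
      rw [Finset.sum_sub_distrib, Finset.sum_ite_eq', if_pos h1, ← map_sum, h2, sub_self]
      rfl) d h1
  rw [if_pos rfl, Submodule.mem_bot, sub_eq_zero] at this
  exact this.symm

theorem Bnd.le_map {M : Submodule Λ (P291.KK B Λ)} (hM : ∀ f ∈ M, ∃ β, Ψ β = f) (d : ℤ) :
    hp S M d ≤ (EH.deg G X (2 * D - 2 * d)).map Ψ := fun f hf => by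
  obtain ⟨β, rfl⟩ := hM f hf.1
  exact ⟨_, EH.comp_mem _ β, H.comp_eq hd hf.2⟩

theorem Bnd.finite_hp {M : Submodule Λ (P291.KK B Λ)} (hM : ∀ f ∈ M, ∃ β, Ψ β = f) (d : ℤ) :
    Module.Finite ℂ (hp S M d) :=
  haveI := H.fin (2 * D - 2 * d)
  Submodule.finiteDimensional_of_le (H.le_map hd hM d)

theorem Bnd.inj {M : Submodule Λ (P291.KK B Λ)} (hM : ∀ f ∈ M, ∃ β, Ψ β = f)
    (hh : ∀ d, h d ≤ finrank ℂ (hp S M d)) : Injective Ψ ∧ ∀ β, Ψ β ∈ M := by
  have key : ∀ d, (EH.deg G X (2 * D - 2 * d)).map Ψ = hp S M d ∧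
      ∀ β ∈ EH.deg G X (2 * D - 2 * d), Ψ β = 0 → β = 0 := fun d => by
    have := H.fin (2 * D - 2 * d)
    have h1 := Submodule.finrank_mono (H.le_map hd hM d)
    have h2 := Submodule.finrank_map_le Ψ (EH.deg G X (2 * D - 2 * d))
    have h3 := H.le d
    have h4 := hh d
    refine ⟨(Submodule.eq_of_le_of_finrank_le (H.le_map hd hM d) (by omega)).symm, fun β hβ h0 => ?_⟩
    have h5 := (Ψ.domRestrict (EH.deg G X (2 * D - 2 * d))).finrank_range_add_finrank_ker
    rw [LinearMap.range_domRestrict] at h5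
    have h6 : LinearMap.ker (Ψ.domRestrict (EH.deg G X (2 * D - 2 * d))) = ⊥ :=
      Submodule.finrank_eq_zero.1 (by omega)
    exact congrArg Subtype.val (LinearMap.ker_eq_bot'.1 h6 ⟨β, hβ⟩ h0)
  refine ⟨(injective_iff_map_eq_zero Ψ).2 fun β h0 => ?_, fun β => ?_⟩
  · obtain ⟨T, -, h2⟩ := H.exists_sum β 0
    rw [← h2]
    exact Finset.sum_eq_zero fun e _ => (key e).2 _ (EH.comp_mem _ _)
      ((H.comp_eq hd (by rw [h0]; exact HG1.hom_zero S e)).trans h0)
  · obtain ⟨T, -, h2⟩ := H.exists_sum β 0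
    rw [← h2, map_sum]
    exact M.sum_mem fun e _ => ((key e).1.le ⟨_, EH.comp_mem _ β, rfl⟩).1

omit hd in
/-- the open part, when the closed part injects -/
theorem Bnd.open_part {i : Y →[G] X} (hi : IsClosedEmbedding i) {j : U →[G] X}
    (hj : IsOpenEmbedding j) (hc : range j = (range i)ᶜ) (hinj : Injective (epush i)) {g : ℤ → ℕ}
    (hg : ∀ d, g d ≤ finrank ℂ (EH.deg G Y (2 * D - 2 * d))) (hh : ∀ d, h d ≤ g d + h' d) :
    Surjective (eres j) ∧ Bnd G U D h' := by
  have hs : Surjective (eres j) := fun β => (exact_eres_ebdy hi hj hc β).1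
    (hinj (((exact_ebdy_epush hi hj hc _).2 ⟨β, rfl⟩).trans (map_zero _).symm))
  have hm : ∀ k, (EH.deg G X k).map (eres j) = EH.deg G U k := fun k => by
    refine le_antisymm (Submodule.map_le_iff_le_comap.2 fun β hβ => eres_deg hj hβ) fun β hβ => ?_
    obtain ⟨γ, rfl⟩ := hs β
    refine ⟨_, EH.comp_mem k γ, ?_⟩
    rw [← EH.comp_map (c := 0) (fun k β hβ => by rw [add_zero]; exact eres_deg hj hβ), add_zero,
      EH.comp_of_mem hβ]
  refine ⟨hs, fun k => ?_, fun k hk => ?_, fun d => ?_⟩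
  · have := H.fin k
    rw [← hm]
    infer_instance
  · rw [← hm, H.odd k hk, Submodule.map_bot]
  · have := H.fin (2 * D - 2 * d)
    have h5 := ((eres j).domRestrict (EH.deg G X (2 * D - 2 * d))).finrank_range_add_finrank_ker
    rw [LinearMap.range_domRestrict, hm] at h5
    let φ : EH.deg G Y (2 * D - 2 * d) →ₗ[ℂ]
        LinearMap.ker ((eres j).domRestrict (EH.deg G X (2 * D - 2 * d))) :=
      ((epush i).restrict fun β hβ => epush_deg (IsPr.of_isProperMap hi.isProperMap) hβ).codRestrict _ fun β =>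
        (exact_epush_eres hi hj hc _).2 ⟨β.1, rfl⟩
    have h6 := LinearMap.finrank_le_finrank_of_injective (f := φ) fun a b hab =>
      Subtype.ext (hinj (congrArg (fun x => x.1.1) hab))
    have h3 := H.le d
    have h4 := hh d
    have h7 := hg d
    omega

end Vale.Agent.P291Z
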