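import Vale.Agent.P291Z.HigE3c
import Vale.Agent.P291Z.WtC
import Vale.Agent.P291Z.HE.Alg

/-!
# Numerical identities for the Jordan strata
-/

set_option linter.unusedSectionVars false

namespace Vale.Agent.P291Z.HE

open Set Function Vale.Agent.P291 N5

variable {I E : Type} {Q : Quiv I E} {Φ : Type} [Fintype Φ] [Fintype I] [Fintype E] [DecidableEq I]
  {K : ℕ}

theorem sum_cnv {E' B Λ : Type} [Fintype E'] [Fintype B] [DecidableEq B] [CommRing Λ] [IsDomain Λ]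
    (Q' : QD I E' B Λ) {v : I → ℕ} (hv : Q'.db Finset.univ = v) (hK : ∀ i, v i ≤ K) {h : ℤ → ℕ}
    (hb : Bb h) (d : ℤ) :
    ∑ m ∈ (JTs v K).filter (fun m => m.dv = v), cnv (hB m) h (d - degJ Q' m) =
      ∑ᶠ e, Q'.mul e * h (d - e) := by
  obtain ⟨c, hc⟩ := hb
  simp only [mul_eq_sum Q' hv hK, Finset.sum_mul]
  rw [finsum_sum_comm]
  · refine Finset.sum_congr rfl fun m _ => ?_
    rw [cnv, ← finsum_comp_equiv (Equiv.subRight (degJ Q' m))]
    refine finsum_congr fun e => ?_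
    rw [Equiv.subRight_apply, show d - degJ Q' m - (e - degJ Q' m) = d - e by ring]
  · intro m _
    refine (Set.finite_Icc (degJ Q' m) (d - c)).subset fun e he => ⟨?_, ?_⟩
    · by_contra h1
      exact he (by dsimp only; rw [hB_neg _ (by omega), zero_mul])
    · by_contra h1
      exact he (by dsimp only; rw [hc _ (by omega), mul_zero])

variable (χ : Q.qd.Fl → Φ → ℤ)

theorem nb_cq (i : I) : nb (cq Q χ) i = Q.v i := by
  have : (Finset.univ.filter fun b : Q.qd.Col => b.1 = i) =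
      Finset.univ.map ⟨fun a : Fin (Q.v i) => (⟨i, a⟩ : Q.qd.Col),
        fun _ _ h => sigma_mk_injective (β := fun i => Fin (Q.v i)) h⟩ := by
    ext ⟨j, a⟩
    simp only [Finset.mem_filter, Finset.mem_univ, true_and, Finset.mem_map,
      Function.Embedding.coeFn_mk]
    constructor
    · rintro rfl
      exact ⟨a, rfl⟩
    · rintro ⟨b, hb⟩
      exact (congrArg Sigma.fst hb).symm
  exact (congrArg Finset.card this).trans (by rw [Finset.card_map, Finset.card_fin])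

theorem sum_fr (f : I → ℤ) : ∑ l : Σ i, Fin (Q.w i), f l.1 = ∑ i, Q.w i * f i := by
  rw [Fintype.sum_sigma]
  simp

theorem degJ_cq {m : JT I K} (hm : m.dv = Q.v) :
    Q.dimN = ∑ i, (Q.v i : ℤ) ^ 2 - m.zz + m.nz Q + m.fz Q + degJ (cq Q χ) m := by
  have h1 := sum_fr (Q := Q) fun i => (Q.v i : ℤ) - ∑ k, (m (i, k) : ℤ)
  rw [degJ, Fintype.sum_sum_type, hm]
  erw [h1]
  simp only [Quiv.dimN, JT.nz, JT.fz, mul_sub, Finset.sum_sub_distrib]
  push_cast
  change _ = _ + (∑ e, ((Q.v (Q.t e) : ℤ) * Q.v (Q.s e) - m.hom (Q.t e) (Q.s e)) + _ - _)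
  rw [Finset.sum_sub_distrib]
  ring

variable {U : Finset Q.qd.Col} {m : JT I K} {v' : I → ℕ} (h1 : ∀ i, nU (cq Q χ) U i = m.dv i)
  (h2 : ∀ i, nU (cq Q χ) Uᶜ i = v' i)

include h1 h2 in
theorem degJ_rst : Q.dimN = (Q.wv v').dimN + ∑ i, (Q.v i : ℤ) ^ 2 - ∑ i, (v' i : ℤ) ^ 2 - m.zz +
    m.nz Q + ((cq Q χ).degK (QD.ind U) + degJ ((cq Q χ).rst U).unf m) := by
  have hv : ∀ i, (Q.v i : ℤ) = m.dv i + v' i := fun i => by
    rw [← nb_cq χ, nb_split _ U, h1, h2, Nat.cast_add]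
  let e : E ≃ {a : Q.qd.Fl // ((cq Q χ).rst U).tgt a ≠ none} :=
    { toFun := fun a => ⟨Sum.inl a, Option.some_ne_none _⟩
      invFun := fun a => match a with
        | ⟨Sum.inl a, _⟩ => a
        | ⟨Sum.inr _, h⟩ => absurd rfl h
      left_inv := fun _ => rfl
      right_inv := by
        rintro ⟨a | a, h⟩
        · rfl
        · exact absurd rfl h }
  have h3 := sum_fr (Q := Q) fun i => (m.dv i : ℤ)
  rw [degJ, ← e.sum_comp, QD.degK, card_cross, card_crossP, Fintype.sum_sum_type]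
  change _ = _ + ((((∑ a, (nU (cq Q χ) U (Q.s a) * nU (cq Q χ) Uᶜ (Q.t a) +
    nU (cq Q χ) Uᶜ (Q.s a) * nU (cq Q χ) U (Q.t a)) + ∑ l : Σ i, Fin (Q.w i),
      (nU (cq Q χ) U l.1 * 1 + nU (cq Q χ) Uᶜ l.1 * 0) : ℕ) : ℤ) - _) +
    (∑ a, ((m.dv (Q.t a) : ℤ) * m.dv (Q.s a) - m.hom (Q.t a) (Q.s a)) - _))
  simp only [h1, h2, mul_one, mul_zero, add_zero, Quiv.dimN, JT.nz]
  push_cast
  rw [h3]
  simp only [hv, add_mul, mul_add, add_sq, Finset.sum_add_distrib, Finset.sum_sub_distrib,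
    mul_assoc, mul_comm (v' (Q.s _) : ℤ), mul_comm (m.dv (Q.s _) : ℤ)]
  ring

include h2 in
theorem hH_rst (d : ℤ) : ((cq Q χ).rst Uᶜ).hH (scF Φ) d = (cq (Q.wv v') χ).hH (scF Φ) d := by
  have e : ∀ i, Nonempty ({b : (Q.wv v').qd.Col // b.1 = i} ≃
      {b : {b // b ∈ Uᶜ} // b.1.1 = i}) := fun i => by
    apply Fintype.card_eq.1
    rw [Fintype.card_subtype, Fintype.card_subtype]
    exact (nb_cq (Q := Q.wv v') χ i).trans ((h2 i).symm.trans (nb_rst _ _ i).symm)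
  exact (hH_congr ((cq Q χ).rst Uᶜ) (scF Φ) (Equiv.ofFiberEquiv fun i => (e i).some) Sigma.fst
    (fun b => (Equiv.ofFiberEquiv_map (fun i => (e i).some) b).symm) d).symm

theorem dv_eq_zero {m : JT I K} (h : m.dv = 0) : m = 0 := funext fun p => by
  have := Finset.sum_eq_zero_iff.1 (congrFun h p.1) p.2 (Finset.mem_univ _)
  simpa using this

/-- the pair of dimension vectors of a Jordan type -/
noncomputable def pm (m : JT I K) : (I →₀ ℕ) × (I →₀ ℕ) :=
  (Finsupp.equivFunOnFinite.symm m.dv, Finsupp.equivFunOnFinite.symm (Q.v - m.dv))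

theorem pm_mem {m : JT I K} (h : m ∈ JTs Q.v K) :
    pm (Q := Q) m ∈ Finset.HasAntidiagonal.antidiagonal (dvec (cq Q χ)) := by
  rw [Finset.HasAntidiagonal.mem_antidiagonal]
  ext i
  rw [dvec_apply, nb_cq]
  exact Nat.add_sub_of_le (mem_JTs.1 h i)

theorem sum_JTs (F : JT I K → ℕ) : ∑ m ∈ (JTs Q.v K).erase 0, F m =
    ∑ p ∈ (Finset.HasAntidiagonal.antidiagonal (dvec (cq Q χ))).erase (0, dvec (cq Q χ)),
      ∑ m ∈ (JTs p.1 K).filter (fun m => m.dv = ⇑p.1), F m := by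
  have hg : ∀ m ∈ (JTs Q.v K).erase 0, pm (Q := Q) m ∈
      (Finset.HasAntidiagonal.antidiagonal (dvec (cq Q χ))).erase (0, dvec (cq Q χ)) :=
    fun m hm => Finset.mem_erase.2 ⟨fun h => (Finset.mem_erase.1 hm).1 (dv_eq_zero
      (congrArg (fun p : (I →₀ ℕ) × (I →₀ ℕ) => ⇑p.1) h)), pm_mem χ (Finset.mem_erase.1 hm).2⟩
  rw [← Finset.sum_fiberwise_of_maps_to hg]
  refine Finset.sum_congr rfl fun p hp => Finset.sum_congr ?_ fun _ _ => rfl
  obtain ⟨h0, hp⟩ := Finset.mem_erase.1 hp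
  rw [Finset.HasAntidiagonal.mem_antidiagonal] at hp
  have hp' : ∀ i, p.1 i + p.2 i = Q.v i := fun i => by rw [← nb_cq χ, ← dvec_apply, ← hp]; rfl
  ext m
  simp only [Finset.mem_filter, Finset.mem_erase, mem_JTs]
  constructor
  · rintro ⟨-, rfl⟩
    exact ⟨fun _ => le_rfl, rfl⟩
  · rintro ⟨-, h⟩
    refine ⟨⟨?_, fun i => by have := hp' i; rw [h]; omega⟩, Prod.ext ?_ ?_⟩
    · rintro rfl
      have : p.1 = 0 := by
        ext i
        rw [← h]
        simp [JT.dv]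
      exact h0 (Prod.ext this (by rw [← hp, this, zero_add]))
    · ext i
      exact congrFun h i
    · ext i
      have := hp' i
      show Q.v i - m.dv i = _
      rw [h]
      omega

end Vale.Agent.P291Z.HE
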